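import Vale.Agent.P158.Stmt
import Mathlib.Algebra.Group.Units.Basic
import Mathlib.Algebra.Group.Int.Units
import Mathlib.Algebra.BigOperators.Group.Finset.Basic
import Mathlib.Data.Real.Basic

/-! Definitions used in the statement: boxes, and ground states of the planar Ising
ferromagnet. -/

namespace Vale.Agent.P158.H219

/-- The box `{-N,…,N}²`. -/
def box (N : ℕ) : Set V := {z | |z.1| ≤ N ∧ |z.2| ≤ N}

/-- The coupling `J_{xy}` (zero if `x` and `y` are not neighbours). -/
noncomputable def coupling (J : latt.edgeSet → ℝ) (x y : V) : ℝ :=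
  open Classical in if h : latt.Adj x y then J ⟨s(x, y), h⟩ else 0

/-- The four neighbours of a vertex. -/
def nbr (x : V) : Finset V :=
  {(x.1 + 1, x.2), (x.1 - 1, x.2), (x.1, x.2 + 1), (x.1, x.2 - 1)}

/-- The sum of `J_{xy} σ_x σ_y` over the edges `{x,y}` with `x` in `A` and `y` not in `A`.
Flipping the spins in `A` changes the energy `-∑ J_{xy} σ_x σ_y` by twice this number. -/
noncomputable def flipCost (J : latt.edgeSet → ℝ) (σ : V → ℤˣ) (A : Finset V) : ℝ :=
  ∑ x ∈ A, ∑ y ∈ nbr x \ A, coupling J x y * (((σ x * σ y : ℤˣ) : ℤ) : ℝ)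

/-- Ground state: no flip of finitely many spins lowers the energy. -/
def IsGroundState (J : latt.edgeSet → ℝ) (σ : V → ℤˣ) : Prop :=
  ∀ A : Finset V, 0 ≤ flipCost J σ A

end Vale.Agent.P158.H219
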