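import Vale.Agent.P158.Stmt
import Vale.Agent.P158.H219.Defs
import Mathlib.Data.ZMod.Basic
import Mathlib.Algebra.CharP.Two
import Mathlib.Tactic.LinearCombination
import Mathlib.Tactic.Ring
import Mathlib.Tactic.Linarith

/-! Planar duality: dual edges, crossings, parity. -/

namespace Vale.Agent.P158.H219

open SimpleGraph

theorem adj_cases {a b : V} (h : latt.Adj a b) :
    b = (a.1 + 1, a.2) ∨ b = (a.1 - 1, a.2) ∨ b = (a.1, a.2 + 1) ∨ b = (a.1, a.2 - 1) := by
  obtain ⟨a1, a2⟩ := a
  obtain ⟨b1, b2⟩ := b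
  have h' : |a1 - b1| + |a2 - b2| = 1 := h
  simp only [Prod.mk.injEq]
  rcases abs_cases (a1 - b1) with ⟨h1, h2⟩ | ⟨h1, h2⟩ <;>
    rcases abs_cases (a2 - b2) with ⟨h3, h4⟩ | ⟨h3, h4⟩ <;> rw [h1, h3] at h' <;> omega

theorem adj_iff {a b : V} : latt.Adj a b ↔
    b = (a.1 + 1, a.2) ∨ b = (a.1 - 1, a.2) ∨ b = (a.1, a.2 + 1) ∨ b = (a.1, a.2 - 1) := by
  refine ⟨adj_cases, ?_⟩
  rintro (rfl | rfl | rfl | rfl) <;> simp [latt]

theorem mem_nbr {x y : V} : y ∈ nbr x ↔ latt.Adj x y := by
  rw [adj_iff]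
  simp [nbr]

/-- An end of the edge crossed by the dual edge from `a` to `b`. -/
def dualPt (a b : V) : V :=
  ((a.1 + b.1 + 1 - (b.2 - a.2)) / 2, (a.2 + b.2 + 1 + (b.1 - a.1)) / 2)

/-- The edge crossed by the dual edge from `a` to `b`. -/
def de (a b : V) : Sym2 V := s(dualPt a b, dualPt b a)

theorem de_comm (a b : V) : de a b = de b a := Sym2.eq_swap

theorem dualPt_e (a : V) : dualPt a (a.1 + 1, a.2) = (a.1 + 1, a.2 + 1) := by
  simp only [dualPt, Prod.mk.injEq]; omega

theorem dualPt_e' (a : V) : dualPt (a.1 + 1, a.2) a = (a.1 + 1, a.2) := by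
  simp only [dualPt, Prod.mk.injEq]; omega

theorem dualPt_w (a : V) : dualPt a (a.1 - 1, a.2) = a := by
  simp only [dualPt, Prod.ext_iff]; omega

theorem dualPt_w' (a : V) : dualPt (a.1 - 1, a.2) a = (a.1, a.2 + 1) := by
  simp only [dualPt, Prod.mk.injEq]; omega

theorem dualPt_n (a : V) : dualPt a (a.1, a.2 + 1) = (a.1, a.2 + 1) := by
  simp only [dualPt, Prod.mk.injEq]; omega

theorem dualPt_n' (a : V) : dualPt (a.1, a.2 + 1) a = (a.1 + 1, a.2 + 1) := by
  simp only [dualPt, Prod.mk.injEq]; omega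

theorem dualPt_s (a : V) : dualPt a (a.1, a.2 - 1) = (a.1 + 1, a.2) := by
  simp only [dualPt, Prod.mk.injEq]; omega

theorem dualPt_s' (a : V) : dualPt (a.1, a.2 - 1) a = a := by
  simp only [dualPt, Prod.ext_iff]; omega

theorem dual_adj {a b : V} (h : latt.Adj a b) : latt.Adj (dualPt a b) (dualPt b a) := by
  rcases adj_cases h with rfl | rfl | rfl | rfl
  · rw [dualPt_e, dualPt_e']; simp [latt]
  · rw [dualPt_w, dualPt_w']; simp [latt]
  · rw [dualPt_n, dualPt_n']; simp [latt]
  · rw [dualPt_s, dualPt_s']; simp [latt]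

theorem de_inj {a b c d : V} (h : latt.Adj a b) (h' : latt.Adj c d) (he : de a b = de c d) :
    s(a, b) = s(c, d) := by
  unfold de at he
  rw [Sym2.eq_iff] at he ⊢
  rcases adj_cases h with rfl | rfl | rfl | rfl <;>
  rcases adj_cases h' with rfl | rfl | rfl | rfl <;>
  simp only [dualPt_e, dualPt_e', dualPt_w, dualPt_w', dualPt_n, dualPt_n', dualPt_s, dualPt_s',
    Prod.ext_iff] at he ⊢ <;> omega

/-- The crossed edge, as a map on edges. -/
def D (e : latt.edgeSet) : latt.edgeSet :=
  ⟨Sym2.lift ⟨de, de_comm⟩ e.1, by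
    obtain ⟨e, he⟩ := e
    induction e using Sym2.ind with
    | _ a b => exact dual_adj (a := a) (b := b) he⟩

theorem D_mk {a b : V} (h : latt.Adj a b) : (D ⟨s(a, b), h⟩).1 = de a b := rfl

theorem D_injective : Function.Injective D := by
  rintro ⟨e, he⟩ ⟨f, hf⟩ h
  induction e using Sym2.ind with
  | _ a b =>
    induction f using Sym2.ind with
    | _ c d =>
      have h1 : de a b = de c d := congrArg Subtype.val h
      exact Subtype.ext (de_inj he hf h1)

/-- Does the dual edge from `a` to `b` cross the horizontal ray to the right of `u`? -/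
def cr (u a b : V) : ZMod 2 := if a.1 = b.1 ∧ max a.2 b.2 = u.2 ∧ u.1 ≤ a.1 then 1 else 0

theorem cr_horizontal {a b : V} (h : latt.Adj a b) (u : V) :
    cr u a b + cr (u.1 + 1, u.2) a b = if de a b = s(u, (u.1 + 1, u.2)) then 1 else 0 := by
  have key : (if de a b = s(u, (u.1 + 1, u.2)) then (1 : ZMod 2) else 0) =
      if (a.1 = b.1 ∧ max a.2 b.2 = u.2 ∧ u.1 = a.1) then 1 else 0 := by
    congr 1
    unfold de
    rw [Sym2.eq_iff]
    rcases adj_cases h with rfl | rfl | rfl | rfl <;>
    simp only [dualPt_e, dualPt_e', dualPt_w, dualPt_w', dualPt_n, dualPt_n', dualPt_s, dualPt_s',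
      Prod.ext_iff, eq_iff_iff, true_and] <;> omega
  rw [key]
  unfold cr
  simp only
  split_ifs <;> first | decide | (exfalso; omega) 

/-- Indicator of the dual vertices between the rows of `u` and `u + (0,1)`, to the right. -/
def phi (u z : V) : ZMod 2 := if z.2 = u.2 ∧ u.1 ≤ z.1 then 1 else 0

theorem cr_vertical {a b : V} (h : latt.Adj a b) (u : V) :
    cr u a b + cr (u.1, u.2 + 1) a b + (if de a b = s(u, (u.1, u.2 + 1)) then 1 else 0) =
      phi u a + phi u b := by
  unfold de cr phi
  simp only [Sym2.eq_iff]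
  rcases adj_cases h with rfl | rfl | rfl | rfl
  all_goals
    simp only [dualPt_e, dualPt_e', dualPt_w, dualPt_w', dualPt_n, dualPt_n', dualPt_s, dualPt_s',
      Prod.ext_iff, true_and]
  all_goals
    split_ifs <;> first | decide | (exfalso; omega) 

/-- Indicator of the dual vertices above the row of `u`. -/
def psi (u z : V) : ZMod 2 := if u.2 ≤ z.2 then 1 else 0

theorem cr_left {a b : V} (h : latt.Adj a b) {u : V} (hu : u.1 ≤ a.1) :
    cr u a b = psi u a + psi u b := by
  unfold cr psi
  rcases adj_cases h with rfl | rfl | rfl | rfl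
  all_goals simp only [true_and]
  all_goals
    split_ifs <;> first | decide | (exfalso; omega) 

/-- Number of crossings, modulo 2, of a dual walk and the horizontal ray to the right of `u`. -/
def cnt (u : V) {x y : V} (p : latt.Walk x y) : ZMod 2 :=
  (p.darts.map fun d => cr u d.fst d.snd).sum

/-- The edges crossed by a dual walk. -/
def crossed {x y : V} (p : latt.Walk x y) : List (Sym2 V) := p.darts.map fun d => de d.fst d.snd

theorem cnt_cons (u : V) {x y z : V} (h : latt.Adj x y) (p : latt.Walk y z) :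
    cnt u (Walk.cons h p) = cr u x y + cnt u p := by
  simp [cnt]

theorem crossed_cons {x y z : V} (h : latt.Adj x y) (p : latt.Walk y z) :
    crossed (Walk.cons h p) = de x y :: crossed p := by
  simp [crossed]

theorem count_cons {x y z : V} (h : latt.Adj x y) (p : latt.Walk y z) (e : Sym2 V) :
    (((crossed (Walk.cons h p)).count e : ℕ) : ZMod 2) =
      (if de x y = e then 1 else 0) + (((crossed p).count e : ℕ) : ZMod 2) := by
  rw [crossed_cons, List.count_cons]
  push_cast
  by_cases h1 : de x y = e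
  · simp [h1]; ring
  · simp [h1]

theorem cnt_horizontal (u : V) {x y : V} (p : latt.Walk x y) :
    cnt u p + cnt (u.1 + 1, u.2) p =
      (((crossed p).count s(u, (u.1 + 1, u.2)) : ℕ) : ZMod 2) := by
  induction p with
  | nil => simp [cnt, crossed]
  | cons h p ih =>
    rw [cnt_cons, cnt_cons, count_cons, ← ih, ← cr_horizontal h]
    ring

theorem cnt_vertical (u : V) {x y : V} (p : latt.Walk x y) :
    cnt u p + cnt (u.1, u.2 + 1) p + (((crossed p).count s(u, (u.1, u.2 + 1)) : ℕ) : ZMod 2) =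
      phi u x + phi u y := by
  induction p with
  | nil => simp [cnt, crossed, CharTwo.add_self_eq_zero]
  | @cons a b c h p ih =>
    rw [cnt_cons, cnt_cons, count_cons]
    have h1 := cr_vertical h u
    have h2 : phi u b + phi u b = 0 := CharTwo.add_self_eq_zero _
    linear_combination h1 + ih + h2

theorem cnt_left {u : V} {x y : V} (p : latt.Walk x y) (hu : ∀ z ∈ p.support, u.1 ≤ z.1) :
    cnt u p = psi u x + psi u y := by
  induction p with
  | nil => simp [cnt, CharTwo.add_self_eq_zero]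
  | @cons a b c h p ih =>
    rw [cnt_cons, ih fun z hz => hu z (by rw [Walk.support_cons]; exact List.mem_cons_of_mem _ hz),
      cr_left h (hu a (by simp))]
    have h2 : psi u b + psi u b = 0 := CharTwo.add_self_eq_zero _
    linear_combination h2

theorem cnt_eq_zero {u : V} {x y : V} (p : latt.Walk x y)
    (hu : ∀ a ∈ p.support, ∀ b ∈ p.support, cr u a b = 0) : cnt u p = 0 := by
  unfold cnt
  refine List.sum_eq_zero fun c hc => ?_
  obtain ⟨d, hd, rfl⟩ := List.mem_map.1 hc
  exact hu _ (p.dart_fst_mem_support_of_mem_darts hd) _ (p.dart_snd_mem_support_of_mem_darts hd)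

theorem exists_bound {x y : V} (p : latt.Walk x y) :
    ∃ B : ℤ, ∀ z ∈ p.support, |z.1| ≤ B ∧ |z.2| ≤ B := by
  induction p with
  | nil =>
    rename_i u
    exact ⟨max |u.1| |u.2|, fun z hz => by simp at hz; subst hz; simp⟩
  | @cons a b c h p ih =>
    obtain ⟨B, hB⟩ := ih
    refine ⟨max B (max |a.1| |a.2|), fun z hz => ?_⟩
    rw [Walk.support_cons, List.mem_cons] at hz
    rcases hz with rfl | hz
    · simp
    · have := hB z hz
      exact ⟨this.1.trans (le_max_left _ _), this.2.trans (le_max_left _ _)⟩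

/-- The vertices enclosed (modulo 2) by a closed dual walk. -/
theorem exists_inside {x : V} (r : latt.Walk x x) :
    ∃ A : Finset V, ∀ u, u ∈ A ↔ cnt u r = 1 := by
  obtain ⟨B, hB⟩ := exists_bound r
  refine ⟨((Finset.Icc (-B) B) ×ˢ (Finset.Icc (-B) B)).filter fun u => cnt u r = 1, fun u => ?_⟩
  rw [Finset.mem_filter, Finset.mem_product, Finset.mem_Icc, Finset.mem_Icc]
  refine ⟨fun h => h.2, fun h => ⟨?_, h⟩⟩
  have hB' : ∀ z ∈ r.support, (-B ≤ z.1 ∧ z.1 ≤ B) ∧ (-B ≤ z.2 ∧ z.2 ≤ B) :=
    fun z hz => ⟨abs_le.1 (hB z hz).1, abs_le.1 (hB z hz).2⟩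
  by_contra hc
  have h0 : cnt u r = 0 := by
    by_cases h1 : B < u.1
    · refine cnt_eq_zero r fun a ha b hb => ?_
      unfold cr
      rw [if_neg]
      have := hB' a ha
      omega
    · by_cases h2 : u.1 < -B
      · rw [cnt_left r fun z hz => by have := hB' z hz; omega]
        exact CharTwo.add_self_eq_zero _
      · refine cnt_eq_zero r fun a ha b hb => ?_
        unfold cr
        rw [if_neg]
        have := hB' a ha
        have := hB' b hb
        omega
  rw [h0] at h
  exact absurd h (by decide)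

theorem mem_inside_iff {x : V} {r : latt.Walk x x} {A : Finset V}
    (hA : ∀ u, u ∈ A ↔ cnt u r = 1) {u v : V} (huv : latt.Adj u v) :
    (¬ (u ∈ A ↔ v ∈ A)) ↔ Odd ((crossed r).count s(u, v)) := by
  have main : ∀ u v : V, v = (u.1 + 1, u.2) ∨ v = (u.1, u.2 + 1) →
      ((¬ (u ∈ A ↔ v ∈ A)) ↔ Odd ((crossed r).count s(u, v))) := by
    intro u v h
    have h1 : (((crossed r).count s(u, v) : ℕ) : ZMod 2) = cnt u r + cnt v r := by
      rcases h with rfl | rfl
      · exact (cnt_horizontal u r).symm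
      · have h2 := cnt_vertical u r
        have h3 : phi u x + phi u x = 0 := CharTwo.add_self_eq_zero _
        have h4 : cnt u r + cnt u r = 0 := CharTwo.add_self_eq_zero _
        have h5 : cnt (u.1, u.2 + 1) r + cnt (u.1, u.2 + 1) r = 0 := CharTwo.add_self_eq_zero _
        linear_combination h2 + h3 - h4 - h5
    rw [hA, hA, ← Nat.not_even_iff_odd, ← ZMod.natCast_eq_zero_iff_even, h1]
    generalize cnt u r = a
    generalize cnt v r = b
    revert a b
    decide
  rcases adj_cases huv with h | h | h | h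
  · exact main u v (Or.inl h)
  · rw [Sym2.eq_swap, ← main v u (Or.inl (by rw [h]; simp)), @iff_comm (v ∈ A)]
  · exact main u v (Or.inr h)
  · rw [Sym2.eq_swap, ← main v u (Or.inr (by rw [h]; simp)), @iff_comm (v ∈ A)]

end Vale.Agent.P158.H219
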