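import Vale.Agent.P158.H219.Mid

/-! The excess of walks through a finite set diverges: finite energy argument. -/

namespace Vale.Agent.P158.H219

open SimpleGraph Filter MeasureTheory T1

variable {G : Measure ℝ} [IsProbabilityMeasure G]

/-- Finite energy: finitely many weights can be lowered below `α`. -/
theorem ae_lower {Q : Env → Prop} (hQ : ∀ᵐ t ∂PG G, Q t) {α : ℝ} (hα : G (Set.Iic α) ≠ 0)
    (l : List latt.edgeSet) : ∀ᵐ t ∂PG G, ∃ t' : Env,
      (∀ e, e ∉ l → t' e = t e) ∧ (∀ e ∈ l, t' e ≤ α) ∧ Q t' := by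
  induction l with
  | nil =>
    filter_upwards [hQ] with t ht
    exact ⟨t, fun _ _ => rfl, fun e he => by simp at he, ht⟩
  | cons e l ih =>
    filter_upwards [T1.ae_update ih e] with t ht
    have hex : ∃ s ∈ Set.Iic α, ∃ t' : Env, (∀ e', e' ∉ l → t' e' = Function.update t e s e') ∧
        (∀ e' ∈ l, t' e' ≤ α) ∧ Q t' := by
      by_contra hc
      push Not at hc
      refine hα (measure_mono_null ?_ (ae_iff.1 ht))
      intro s hs hcon
      obtain ⟨t', h1, h2, h3⟩ := hcon
      exact hc s hs t' h1 h2 h3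
    obtain ⟨s, hs, t', h1, h2, h3⟩ := hex
    refine ⟨t', fun e' he' => ?_, fun e' he' => ?_, h3⟩
    · rw [List.mem_cons, not_or] at he'
      rw [h1 e' he'.2, Function.update_of_ne he'.1]
    · by_cases h4 : e' ∈ l
      · exact h2 e' h4
      · have h5 : e' = e := by
          rw [List.mem_cons] at he'
          exact he'.resolve_right h4
        rw [h1 e' h4, h5, Function.update_self]
        exact hs

/-- Long paths have many heavy edges. -/
theorem ae_heavy {β : ℝ} (hβ : G (Set.Iio β) ≤ 1 / 16) : ∀ᵐ t ∂PG G, ∀ x : V, ∃ l : ℕ,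
    ∀ (y : V) (p : latt.Walk x y), p.IsPath → l ≤ p.length →
      p.length ≤ 8 * Pe.nh β t (pe p) := by
  rw [ae_all_iff]
  intro x
  have hlim : Tendsto (fun l : ℕ => ENNReal.ofReal (8 * (3 / 4) ^ l)) atTop (nhds 0) := by
    have h1 : Tendsto (fun l : ℕ => (8 : ℝ) * (3 / 4) ^ l) atTop (nhds (8 * 0)) :=
      (tendsto_pow_atTop_nhds_zero_of_lt_one (by norm_num) (by norm_num)).const_mul 8
    have h2 := (ENNReal.continuous_ofReal.tendsto _).comp h1
    rw [mul_zero, ENNReal.ofReal_zero] at h2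
    exact h2
  rw [ae_iff]
  refine le_antisymm ?_ (zero_le)
  refine ge_of_tendsto' hlim fun l => ?_
  refine (measure_mono ?_).trans (Pe.peierls_tail hβ x l)
  intro t ht
  have ht' : ¬ ∃ l : ℕ, ∀ (y : V) (p : latt.Walk x y), p.IsPath → l ≤ p.length →
      p.length ≤ 8 * Pe.nh β t (pe p) := ht
  push Not at ht'
  obtain ⟨y, p, h1, h2, h3⟩ := ht' l
  exact ⟨y, p, h1, h2, h3⟩

theorem pe_reverse {x y : V} (p : latt.Walk x y) : pe p.reverse = pe p := by
  ext e
  simp only [mem_pe, Walk.darts_reverse, List.mem_map, List.mem_reverse]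
  constructor
  · rintro ⟨d, ⟨d', hd', rfl⟩, rfl⟩
    exact ⟨d', hd', Subtype.ext d'.edge_symm.symm⟩
  · rintro ⟨d, hd, rfl⟩
    exact ⟨d.symm, ⟨d, hd, rfl⟩, Subtype.ext d.edge_symm⟩

theorem pe_take_subset {x y : V} (p : latt.Walk x y) (n : ℕ) : pe (p.take n) ⊆ pe p := by
  classical
  conv_rhs => rw [← Walk.append_take_drop_eq p n]
  rw [Pe.pe_append]
  exact Finset.subset_union_left

/-- Good environments for the finite energy argument. -/
def Qg (t : Env) : Prop := (∀ e, 0 < t e) ∧ FB (wt t) ∧ ∀ v : ℤ → V, ¬ IsBigeodesic t v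

/-- Walks in `S` of minimal weight exist. -/
theorem exists_isGeodesicIn {t : Env} (ht : ∀ e, 0 < t e) (hf : FB (wt t)) {S : Set V} {x y : V}
    (p : latt.Walk x y) (hp : ∀ z ∈ p.support, z ∈ S) :
    ∃ g : latt.Walk x y, IsGeodesicIn t S g := by
  have hw := adm_of_pos ht
  obtain ⟨g, hg1, hg2⟩ := att_aux hw (⟨p, hp⟩ : Conn S x y)
    (hf (T (wt t) 0 x + (PT (wt t) S x y + 1))) (by
      intro p _ _ hp' z hz
      have h1 := T_triangle hw 0 x z
      have h2 := T_le hw (p.takeUntil z hz)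
      have h3 := ww_takeUntil_le hw p hz
      show T (wt t) 0 z ≤ _
      linarith only [hp', h1, h2, h3])
  refine ⟨g, hg1, fun q hq => ?_⟩
  rw [← ww_wt, ← ww_wt, hg2]
  exact PT_le hw q hq

theorem excess_det {t : Env} {α β : ℝ} (hαβ : α < β) (ht : ∀ e, 0 < t e)
    (hheavy : ∀ x : V, ∃ l : ℕ, ∀ (y : V) (p : latt.Walk x y), p.IsPath → l ≤ p.length →
      p.length ≤ 8 * Pe.nh β t (pe p))
    (hlow : ∀ l : List latt.edgeSet, ∃ t' : Env,
      (∀ e, e ∉ l → t' e = t e) ∧ (∀ e ∈ l, t' e ≤ α) ∧ Qg t')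
    (K : Finset V) (C : ℝ) : ∃ N : ℕ, ∀ S : Set V, box N ⊆ S → ∀ x y : V, x ∉ box N → y ∉ box N →
      ∀ p : latt.Walk x y, (∀ z ∈ p.support, z ∈ S) → (∃ z ∈ p.support, z ∈ K) →
        ∃ q : latt.Walk x y, (∀ z ∈ q.support, z ∈ S) ∧
          walkWeight t q + C ≤ walkWeight t p := by
  classical
  by_contra hcon
  push Not at hcon
  choose S hS x y hx hy p hp hex hq using hcon
  choose z hz hzK using hex
  have hw := adm_of_pos ht
  obtain ⟨r, hr⟩ := exists_box K
  -- the length of the marked segment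
  choose lx hlx using hheavy
  obtain ⟨m, hm⟩ := exists_nat_gt (8 * C / (β - α))
  set k : ℕ := K.sup lx + m with hk
  have hkC : C ≤ (k : ℝ) / 8 * (β - α) := by
    have h0 : 0 < β - α := sub_pos.2 hαβ
    have h1 : 8 * C < m * (β - α) := by
      rwa [div_lt_iff₀ h0] at hm
    have h2 : (m : ℝ) ≤ k := by
      rw [hk]; push_cast; linarith [Nat.cast_nonneg (α := ℝ) (K.sup lx)]
    nlinarith
  -- the path from the marked vertex
  let π : ∀ n, latt.Walk (z n) (x n) := fun n => ((p n).takeUntil (z n) (hz n)).reverse.bypass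
  let b : ∀ n, latt.Walk (z n) (y n) := fun n => (p n).dropUntil (z n) (hz n)
  have hπpath : ∀ n, (π n).IsPath := fun n => Walk.bypass_isPath _
  have hπS : ∀ n, ∀ u ∈ (π n).support, u ∈ S n := by
    intro n u hu
    have h1 := Walk.support_bypass_subset_support _ hu
    rw [Walk.support_reverse, List.mem_reverse] at h1
    exact hp n u ((p n).support_takeUntil_subset_support (hz n) h1)
  have hbS : ∀ n, ∀ u ∈ (b n).support, u ∈ S n := fun n u hu =>
    hp n u ((p n).support_dropUntil_subset_support (hz n) hu)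
  have hweight : ∀ n, ww (wt t) (π n) + ww (wt t) (b n) ≤ walkWeight t (p n) := by
    intro n
    have h1 := ww_bypass_le hw ((p n).takeUntil (z n) (hz n)).reverse
    rw [ww_reverse hw] at h1
    have h2 : ww (wt t) ((p n).takeUntil (z n) (hz n)) + ww (wt t) (b n) =
        ww (wt t) (p n) := by
      rw [← ww_append, Walk.take_spec]
    rw [← ww_wt]
    linarith
  have hzr : ∀ n, z n ∈ bx 0 r := fun n => by
    rw [← box_eq]; exact hr _ (hzK n)
  have hπlen : ∀ n, r + k ≤ n → k ≤ (π n).length := by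
    intro n hn
    have h1 : x n ∈ bx 0 (r + (π n).length) := by
      have := CL.getVert_bx (z := 0) (r := r) (i := 0) (π n)
        (by rw [Walk.getVert_zero]; exact hzr n) (π n).length
      rwa [zero_add, Walk.getVert_length] at this
    by_contra hc
    exact hx n (by rw [box_eq]; exact bx_mono (by omega) h1)
  -- heavy edges of the marked segment
  let F : ℕ → Finset latt.edgeSet := fun n => (pe ((π n).take k)).filter fun e => β ≤ t e
  have hFcard : ∀ n, r + k ≤ n → k ≤ 8 * (F n).card := by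
    intro n hn
    have h1 : ((π n).take k).length = k := by
      rw [Walk.take_length, min_eq_left (hπlen n hn)]
    have h2 := hlx (z n) _ ((π n).take k) ((hπpath n).take k)
      (by rw [h1, hk]; exact (Finset.le_sup (f := lx) (hzK n)).trans (Nat.le_add_right _ _))
    rw [h1] at h2
    exact h2
  have hFπ : ∀ n, F n ⊆ pe (π n) := fun n =>
    (Finset.filter_subset _ _).trans (pe_take_subset _ _)
  have hFfin : ∀ n, F n ∈ ((edges_finite (bx_finite 0 (r + k))).toFinset.powerset : Set _) := by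
    intro n
    rw [Finset.mem_coe, Finset.mem_powerset]
    intro e he
    rw [Set.Finite.mem_toFinset]
    intro u hu
    obtain ⟨d, hd, rfl⟩ := mem_pe.1 (Finset.mem_filter.1 he).1
    have hmem : u ∈ ((π n).take k).support := by
      have hu' : u ∈ d.edge := hu
      rw [Dart.edge, Sym2.mem_iff] at hu'
      rcases hu' with rfl | rfl
      · exact Walk.dart_fst_mem_support_of_mem_darts _ hd
      · exact Walk.dart_snd_mem_support_of_mem_darts _ hd
    obtain ⟨i, hi, hi'⟩ := Walk.mem_support_iff_exists_getVert.1 hmem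
    rw [Walk.take_length] at hi'
    have h1 : (π n).getVert i = u := by
      rw [← hi, Walk.take_getVert, min_eq_right (hi'.trans (min_le_left _ _))]
    have h2 := CL.getVert_bx (z := 0) (r := r) (i := 0) (π n)
      (by rw [Walk.getVert_zero]; exact hzr n) i
    rw [zero_add, h1] at h2
    exact bx_mono (Nat.add_le_add_left (hi'.trans (min_le_left _ _)) r) h2
  obtain ⟨F₀, -, hF₀⟩ := CL.ultra_const (hyperfilter ℕ) (f := F) (Finset.finite_toSet _)
    (Eventually.of_forall hFfin)
  -- lower the weights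
  obtain ⟨t', ht1, ht2, ht3, ht4, ht5⟩ := hlow F₀.toList
  simp only [Finset.mem_toList] at ht1 ht2
  have hw' := adm_of_pos ht3
  -- the vertices of the lowered edges
  have hfinK : {u : V | ∃ e ∈ F₀, u ∈ e.1}.Finite := by
    have : {u : V | ∃ e ∈ F₀, u ∈ e.1} = ⋃ e ∈ F₀, {u : V | u ∈ e.1} := by
      ext u; simp
    rw [this]
    refine Set.Finite.biUnion (Finset.finite_toSet F₀) fun e _ => ?_
    obtain ⟨⟨a, b⟩, hab⟩ := Sym2.mk_surjective e.1
    rw [← hab]
    refine (Set.toFinite {a, b}).subset fun u hu => ?_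
    simpa using hu
  obtain ⟨N, hN⟩ := midpoint_uniform ht3 ht5 hfinK.toFinset
  have h1 : ∀ᶠ n in (hyperfilter ℕ : Filter ℕ), N + (r + k) ≤ n :=
    Nat.hyperfilter_le_atTop (eventually_ge_atTop _)
  obtain ⟨n, hn1, hn2⟩ := (h1.and hF₀).exists
  have hbox : box N ⊆ box n := by
    rw [box_eq, box_eq]; exact bx_mono (by omega)
  obtain ⟨g, hg⟩ := exists_isGeodesicIn ht3 ht4 (p n) (hp n)
  have hgK := hN (S n) (hbox.trans (hS n)) (x n) (y n) (fun h => hx n (hbox h))
    (fun h => hy n (hbox h)) g hg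
  -- the geodesic does not use the lowered edges
  have hgt : ww (wt t') g = ww (wt t) g := by
    refine ww_congr g fun e he => ht1 e fun heF => ?_
    obtain ⟨d, hd, rfl⟩ := mem_pe.1 he
    refine hgK d.fst (Walk.dart_fst_mem_support_of_mem_darts _ hd) ?_
    rw [Set.Finite.mem_toFinset]
    exact ⟨dE d, heF, by simp [dE, Dart.edge]⟩
  -- the weight of the marked walk after lowering
  have hle : ∀ e, t' e ≤ t e := by
    intro e
    by_cases he : e ∈ F₀
    · have h2 := ht2 e he
      rw [← hn2] at he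
      have h3 := (Finset.mem_filter.1 he).2
      linarith
    · exact (ht1 e he).le
  have hπ' : ww (wt t') (π n) ≤ ww (wt t) (π n) - F₀.card * (β - α) := by
    rw [Pe.ww_eq_sum (hπpath n), Pe.ww_eq_sum (hπpath n)]
    have hsub : F₀ ⊆ pe (π n) := by rw [← hn2]; exact hFπ n
    rw [← Finset.sum_sdiff hsub, ← Finset.sum_sdiff hsub]
    have h2 : ∑ e ∈ pe (π n) \ F₀, t' e ≤ ∑ e ∈ pe (π n) \ F₀, t e :=
      Finset.sum_le_sum fun e _ => hle e
    have h3 : ∑ e ∈ F₀, t' e ≤ ∑ e ∈ F₀, t e - F₀.card * (β - α) := by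
      rw [← nsmul_eq_mul, ← Finset.sum_const, ← Finset.sum_sub_distrib]
      refine Finset.sum_le_sum fun e he => ?_
      have h4 := ht2 e he
      rw [← hn2] at he
      have h5 := (Finset.mem_filter.1 he).2
      linarith
    linarith
  have hb' : ww (wt t') (b n) ≤ ww (wt t) (b n) := ww_mono (wt_mono hle) _
  have hgeo : walkWeight t' g ≤ walkWeight t' ((π n).reverse.append (b n)) := by
    refine hg.2 _ fun u hu => ?_
    rw [Walk.mem_support_append_iff, Walk.support_reverse, List.mem_reverse] at hu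
    rcases hu with hu | hu
    · exact hπS n u hu
    · exact hbS n u hu
  rw [← ww_wt, ← ww_wt, hgt, ww_append, ww_reverse hw'] at hgeo
  have hfin := hq n g hg.1
  rw [← ww_wt t g] at hfin
  have hcard : (k : ℝ) / 8 ≤ F₀.card := by
    have h2 := hFcard n (by omega)
    rw [hn2] at h2
    have h3 : (k : ℝ) ≤ 8 * F₀.card := by exact_mod_cast h2
    linarith
  have h6 := hweight n
  have h7 : (k : ℝ) / 8 * (β - α) ≤ F₀.card * (β - α) :=
    mul_le_mul_of_nonneg_right hcard (sub_pos.2 hαβ).le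
  linarith

/-- Almost surely, the excess of walks through a finite set diverges. -/
theorem ae_excess [NullSingletonClass G] (hG : G (Set.Iio 0) = 0) : ∀ᵐ t ∂PG G,
    (∀ e, 0 < t e) ∧
    ∀ (K : Finset V) (C : ℝ), ∃ N : ℕ, ∀ S : Set V, box N ⊆ S → ∀ x y : V,
      x ∉ box N → y ∉ box N → ∀ p : latt.Walk x y, (∀ z ∈ p.support, z ∈ S) →
      (∃ z ∈ p.support, z ∈ K) →
        ∃ q : latt.Walk x y, (∀ z ∈ q.support, z ∈ S) ∧
          walkWeight t q + C ≤ walkWeight t p := by
  obtain ⟨α, β, hα, hαβ, hlo, hhi⟩ := C.Fin.exists_levels (G := G) hG (η := 1 / 16) (by norm_num)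
    (by norm_num)
  have hβ : G (Set.Iio β) ≤ 1 / 16 := by
    refine (measure_mono Set.Iio_subset_Iic_self).trans ?_
    rw [hhi, ENNReal.ofReal_div_of_pos (by norm_num)]
    norm_num
  have hα0 : G (Set.Iic α) ≠ 0 := by
    rw [hlo]
    norm_num
  have hQ : ∀ᵐ t ∂PG G, Qg t := by
    filter_upwards [ae_pos G hG, C.PathP.fb hG, C.FinT.finT hG (C.MrgAll.mrg_all hG)]
      with t h1 h2 h3
    exact ⟨h1, h2, fun v hv => h3 v (hv.isBi (adm_of_pos h1))⟩
  have hl : ∀ᵐ t ∂PG G, ∀ l : List latt.edgeSet, ∃ t' : Env,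
      (∀ e, e ∉ l → t' e = t e) ∧ (∀ e ∈ l, t' e ≤ α) ∧ Qg t' := by
    rw [ae_all_iff]
    exact fun l => ae_lower hQ hα0 l
  filter_upwards [ae_pos G hG, ae_heavy hβ, hl] with t h1 h2 h3
  exact ⟨h1, excess_det hαβ h1 h2 h3⟩

end Vale.Agent.P158.H219
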