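import Vale.Agent.P158.H219.Dual
import Mathlib.Algebra.BigOperators.Group.Finset.Sigma
import Mathlib.Algebra.Order.BigOperators.Group.Finset

/-! Flipping the inside of a closed dual walk: segments of domain walls are geodesics of the dual
lattice. -/

namespace Vale.Agent.P158.H219

open SimpleGraph

/-- The coupling of an unordered pair. -/
noncomputable def Jp (J : latt.edgeSet → ℝ) (e : Sym2 V) : ℝ :=
  open Classical in if h : e ∈ latt.edgeSet then J ⟨e, h⟩ else 0

theorem Jp_nonneg {J : latt.edgeSet → ℝ} (hJ : ∀ e, 0 ≤ J e) (e : Sym2 V) : 0 ≤ Jp J e := by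
  unfold Jp
  split_ifs
  · exact hJ _
  · exact le_rfl

theorem coupling_eq (J : latt.edgeSet → ℝ) (x y : V) : coupling J x y = Jp J s(x, y) := by
  unfold coupling Jp
  by_cases h : latt.Adj x y
  · rw [dif_pos h, dif_pos (show s(x, y) ∈ latt.edgeSet from h)]
  · rw [dif_neg h, dif_neg (show ¬ s(x, y) ∈ latt.edgeSet from h)]

/-- The dual environment. -/
def dualEnv (J : latt.edgeSet → ℝ) : latt.edgeSet → ℝ := fun e => J (D e)

theorem walkWeight_dual (J : latt.edgeSet → ℝ) {x y : V} (p : latt.Walk x y) :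
    walkWeight (dualEnv J) p = ((crossed p).map (Jp J)).sum := by
  unfold walkWeight crossed
  rw [List.map_map]
  congr 1
  refine List.map_congr_left fun d _ => ?_
  have hd := dual_adj d.adj
  show J (D ⟨d.edge, d.edge_mem⟩) = Jp J (de d.fst d.snd)
  unfold Jp
  rw [dif_pos (show de d.fst d.snd ∈ latt.edgeSet from hd)]
  rfl

theorem walkWeight_dual_sum (J : latt.edgeSet → ℝ) {x y : V} (p : latt.Walk x y)
    {E : Finset (Sym2 V)} (hE : ∀ e ∈ crossed p, e ∈ E) :
    walkWeight (dualEnv J) p = ∑ e ∈ E, ((crossed p).count e : ℝ) * Jp J e := by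
  rw [walkWeight_dual, Finset.sum_list_map_count]
  rw [Finset.sum_subset (s₁ := (crossed p).toFinset) (s₂ := E)]
  · exact Finset.sum_congr rfl fun e _ => by rw [nsmul_eq_mul]
  · intro e he
    exact hE e (List.mem_toFinset.1 he)
  · intro e _ he
    rw [List.mem_toFinset] at he
    rw [List.count_eq_zero.2 he, zero_smul]

/-- Domain wall: dual neighbours separated by different spins. -/
def Wall (σ : V → ℤˣ) (a b : V) : Prop := σ (dualPt a b) ≠ σ (dualPt b a)

theorem sign_eq (u v : ℤˣ) : (((u * v : ℤˣ) : ℤ) : ℝ) = if u = v then 1 else -1 := by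
  rcases Int.units_eq_one_or u with rfl | rfl <;> rcases Int.units_eq_one_or v with rfl | rfl <;>
    simp

theorem crossed_append {x y z : V} (p : latt.Walk x y) (q : latt.Walk y z) :
    crossed (p.append q) = crossed p ++ crossed q := by
  simp [crossed]

theorem count_crossed_reverse {x y : V} (p : latt.Walk x y) (e : Sym2 V) :
    (crossed p.reverse).count e = (crossed p).count e := by
  have : crossed p.reverse = (crossed p).reverse := by
    unfold crossed
    rw [Walk.darts_reverse, List.map_reverse, List.map_map]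
    congr 1
    refine List.map_congr_left fun d _ => ?_
    exact de_comm _ _
  rw [this, List.count_reverse]

/-- Along a domain wall without repeated edges, the weight is at most that of any other walk. -/
theorem flip {J : latt.edgeSet → ℝ} (hJ : ∀ e, 0 ≤ J e) {σ : V → ℤˣ} (hσ : IsGroundState J σ)
    {x y : V} (p q : latt.Walk x y) (hp : (crossed p).Nodup)
    (hC : ∀ d ∈ p.darts, Wall σ d.fst d.snd) :
    walkWeight (dualEnv J) p ≤ walkWeight (dualEnv J) q := by
  classical
  set r : latt.Walk x x := p.append q.reverse with hr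
  obtain ⟨A, hA⟩ := exists_inside r
  have hcount : ∀ e, (crossed r).count e = (crossed p).count e + (crossed q).count e := by
    intro e
    rw [hr, crossed_append, List.count_append, count_crossed_reverse]
  have hp1 : ∀ e, (crossed p).count e ≤ 1 := fun e => List.nodup_iff_count_le_one.1 hp e
  set E : Finset (Sym2 V) := (crossed p).toFinset ∪ (crossed q).toFinset with hE
  set H : Sym2 V → ℝ := fun e => ((crossed q).count e : ℝ) * Jp J e -
    ((crossed p).count e : ℝ) * Jp J e with hH
  have hsum : ∑ e ∈ E, H e = walkWeight (dualEnv J) q - walkWeight (dualEnv J) p := by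
    rw [walkWeight_dual_sum J q (E := E) fun e he => by rw [hE]; simp [he],
      walkWeight_dual_sum J p (E := E) fun e he => by rw [hE]; simp [he],
      ← Finset.sum_sub_distrib]
  -- the wall condition
  have hwall : ∀ u v : V, s(u, v) ∈ crossed p → σ u ≠ σ v := by
    intro u v huv
    obtain ⟨d, hd, he⟩ := List.mem_map.1 huv
    have h1 := hC d hd
    unfold Wall at h1
    unfold de at he
    rw [Sym2.eq_iff] at he
    rcases he with ⟨h2, h3⟩ | ⟨h2, h3⟩
    · rw [← h2, ← h3]; exact h1
    · rw [← h2, ← h3]; exact h1.symm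
  set B : Finset (Σ _ : V, V) := A.sigma fun u => nbr u \ A with hB
  have hcost : flipCost J σ A = ∑ z ∈ B, coupling J z.1 z.2 * (((σ z.1 * σ z.2 : ℤˣ) : ℤ) : ℝ) := by
    unfold flipCost
    rw [hB, Finset.sum_sigma]
  have hB1 : ∀ z ∈ B, z.1 ∈ A ∧ z.2 ∉ A ∧ latt.Adj z.1 z.2 := by
    intro z hz
    rw [hB, Finset.mem_sigma, Finset.mem_sdiff, mem_nbr] at hz
    exact ⟨hz.1, hz.2.2, hz.2.1⟩
  have hodd : ∀ z ∈ B, Odd ((crossed r).count s(z.1, z.2)) := by
    intro z hz
    obtain ⟨h1, h2, h3⟩ := hB1 z hz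
    rw [← mem_inside_iff hA h3]
    exact fun h => h2 (h.1 h1)
  have hterm : ∀ z ∈ B, coupling J z.1 z.2 * (((σ z.1 * σ z.2 : ℤˣ) : ℤ) : ℝ) ≤
      H s(z.1, z.2) := by
    intro z hz
    have h0 := hodd z hz
    rw [hcount] at h0
    have hJ0 := Jp_nonneg hJ s(z.1, z.2)
    rw [coupling_eq, sign_eq, hH]
    simp only
    rcases Nat.eq_zero_or_pos ((crossed p).count s(z.1, z.2)) with h1 | h1
    · rw [h1] at h0 ⊢
      rw [zero_add] at h0
      have h2 : (1 : ℝ) ≤ ((crossed q).count s(z.1, z.2) : ℝ) := by exact_mod_cast h0.pos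
      split_ifs <;> push_cast <;> nlinarith
    · have h2 : (crossed p).count s(z.1, z.2) = 1 := le_antisymm (hp1 _) h1
      rw [if_neg (hwall _ _ (List.count_pos_iff.1 h1)), h2]
      have h3 : (0 : ℝ) ≤ ((crossed q).count s(z.1, z.2) : ℝ) := Nat.cast_nonneg _
      push_cast
      nlinarith
  have hinj : Set.InjOn (fun z : (Σ _ : V, V) => s(z.1, z.2)) (B : Set (Σ _ : V, V)) := by
    intro z hz z' hz' h
    obtain ⟨h1, h2, -⟩ := hB1 z hz
    obtain ⟨h1', h2', -⟩ := hB1 z' hz'
    simp only [Sym2.eq_iff] at h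
    rcases h with ⟨h3, h4⟩ | ⟨h3, h4⟩
    · exact Sigma.ext h3 (heq_of_eq h4)
    · exact absurd (h3 ▸ h1) h2'
  have himg : B.image (fun z : (Σ _ : V, V) => s(z.1, z.2)) ⊆ E := by
    intro e he
    obtain ⟨z, hz, rfl⟩ := Finset.mem_image.1 he
    have h0 := (hodd z hz).pos
    rw [hcount] at h0
    rw [hE, Finset.mem_union, List.mem_toFinset, List.mem_toFinset, ← List.count_pos_iff,
      ← List.count_pos_iff]
    omega
  have hrest : ∀ e ∈ E, e ∉ B.image (fun z : (Σ _ : V, V) => s(z.1, z.2)) → 0 ≤ H e := by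
    intro e he hne
    have hmem : e ∈ latt.edgeSet := by
      rw [hE, Finset.mem_union, List.mem_toFinset, List.mem_toFinset] at he
      rcases he with he | he
      · obtain ⟨d, -, rfl⟩ := List.mem_map.1 he
        exact dual_adj d.adj
      · obtain ⟨d, -, rfl⟩ := List.mem_map.1 he
        exact dual_adj d.adj
    have heven : ¬ Odd ((crossed r).count e) := by
      intro hodd'
      induction e using Sym2.ind with
      | _ u v =>
        have huv : latt.Adj u v := hmem
        have h1 := (mem_inside_iff hA huv).2 hodd'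
        by_cases hu : u ∈ A
        · have hv : v ∉ A := fun hv => h1 ⟨fun _ => hv, fun _ => hu⟩
          refine hne (Finset.mem_image.2 ⟨⟨u, v⟩, ?_, rfl⟩)
          rw [hB, Finset.mem_sigma, Finset.mem_sdiff, mem_nbr]
          exact ⟨hu, huv, hv⟩
        · have hv : v ∈ A := by
            by_contra hv
            exact h1 ⟨fun h => absurd h hu, fun h => absurd h hv⟩
          refine hne (Finset.mem_image.2 ⟨⟨v, u⟩, ?_, Sym2.eq_swap⟩)
          rw [hB, Finset.mem_sigma, Finset.mem_sdiff, mem_nbr]
          exact ⟨hv, huv.symm, hu⟩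
    rw [Nat.not_odd_iff_even, hcount] at heven
    have hJ0 := Jp_nonneg hJ e
    have hle : (crossed p).count e ≤ (crossed q).count e := by
      have := hp1 e
      obtain ⟨k, hk⟩ := heven
      omega
    have hle' : ((crossed p).count e : ℝ) ≤ ((crossed q).count e : ℝ) := by exact_mod_cast hle
    rw [hH]
    simp only
    nlinarith
  have h0 := hσ A
  have h1 : flipCost J σ A ≤ ∑ e ∈ E, H e := by
    rw [hcost]
    calc ∑ z ∈ B, coupling J z.1 z.2 * (((σ z.1 * σ z.2 : ℤˣ) : ℤ) : ℝ)
        ≤ ∑ z ∈ B, H s(z.1, z.2) := Finset.sum_le_sum hterm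
      _ = ∑ e ∈ B.image (fun z : (Σ _ : V, V) => s(z.1, z.2)), H e := by
          rw [Finset.sum_image hinj]
      _ ≤ ∑ e ∈ E, H e := Finset.sum_le_sum_of_subset_of_nonneg himg hrest
  linarith

end Vale.Agent.P158.H219
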