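import Vale.Agent.P158.H219.Flip

/-! A non-constant ground state has a domain wall which is a bigeodesic of the dual
environment. -/

namespace Vale.Agent.P158.H219

open SimpleGraph

variable {J : latt.edgeSet → ℝ} {σ : V → ℤˣ}

/-- Dual neighbours separated by a domain wall. -/
def CAdj (σ : V → ℤˣ) (a b : V) : Prop := latt.Adj a b ∧ Wall σ a b

theorem CAdj.symm {a b : V} (h : CAdj σ a b) : CAdj σ b a := ⟨h.1.symm, Ne.symm h.2⟩

theorem cAdj_e (a : V) : CAdj σ a (a.1 + 1, a.2) ↔ σ (a.1 + 1, a.2 + 1) ≠ σ (a.1 + 1, a.2) := by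
  unfold CAdj Wall
  rw [dualPt_e, dualPt_e', adj_iff]
  simp

theorem cAdj_w (a : V) : CAdj σ a (a.1 - 1, a.2) ↔ σ a ≠ σ (a.1, a.2 + 1) := by
  unfold CAdj Wall
  rw [dualPt_w, dualPt_w', adj_iff]
  simp

theorem cAdj_n (a : V) : CAdj σ a (a.1, a.2 + 1) ↔ σ (a.1, a.2 + 1) ≠ σ (a.1 + 1, a.2 + 1) := by
  unfold CAdj Wall
  rw [dualPt_n, dualPt_n', adj_iff]
  simp

theorem cAdj_s (a : V) : CAdj σ a (a.1, a.2 - 1) ↔ σ (a.1 + 1, a.2) ≠ σ a := by
  unfold CAdj Wall
  rw [dualPt_s, dualPt_s', adj_iff]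
  simp

/-- A domain wall does not end. -/
theorem exists_next {a b : V} (h : CAdj σ a b) : ∃ c, c ≠ b ∧ CAdj σ a c := by
  by_contra hc
  push Not at hc
  have he := (cAdj_e (σ := σ) a).not
  have hw := (cAdj_w (σ := σ) a).not
  have hn := (cAdj_n (σ := σ) a).not
  have hs := (cAdj_s (σ := σ) a).not
  rw [not_not] at he hw hn hs
  have h1 : (a.1 + 1, a.2) ≠ b → σ (a.1 + 1, a.2 + 1) = σ (a.1 + 1, a.2) := fun h => he.1 (hc _ h)
  have h2 : (a.1 - 1, a.2) ≠ b → σ a = σ (a.1, a.2 + 1) := fun h => hw.1 (hc _ h)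
  have h3 : (a.1, a.2 + 1) ≠ b → σ (a.1, a.2 + 1) = σ (a.1 + 1, a.2 + 1) :=
    fun h => hn.1 (hc _ h)
  have h4 : (a.1, a.2 - 1) ≠ b → σ (a.1 + 1, a.2) = σ a := fun h => hs.1 (hc _ h)
  rcases adj_cases h.1 with rfl | rfl | rfl | rfl
  · refine (cAdj_e a).1 h ?_
    rw [← h3 (by simp), ← h2 (by simp; omega), ← h4 (by simp)]
  · refine (cAdj_w a).1 h ?_
    rw [← h4 (by simp), ← h1 (by simp; omega), ← h3 (by simp)]
  · refine (cAdj_n a).1 h ?_
    rw [← h2 (by simp), ← h4 (by simp; omega), ← h1 (by simp)]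
  · refine (cAdj_s a).1 h ?_
    rw [← h1 (by simp), ← h3 (by simp; omega), ← h2 (by simp)]

/-- A domain wall can be followed for ever. -/
theorem exists_half {a b : V} (h : CAdj σ a b) : ∃ f : ℕ → V, f 0 = a ∧ f 1 = b ∧
    (∀ n, CAdj σ (f n) (f (n + 1))) ∧ ∀ n, f (n + 2) ≠ f n := by
  have step : ∀ z : {z : V × V // CAdj σ z.1 z.2}, ∃ c, c ≠ z.1.1 ∧ CAdj σ z.1.2 c :=
    fun z => exists_next z.2.symm
  choose nx hnx1 hnx2 using step
  let F : ℕ → {z : V × V // CAdj σ z.1 z.2} := fun n =>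
    Nat.rec ⟨(a, b), h⟩ (fun _ z => ⟨(z.1.2, nx z), hnx2 z⟩) n
  have hF : ∀ n, (F (n + 1)).1.1 = (F n).1.2 := fun n => rfl
  have hF2 : ∀ n, (F (n + 1)).1.2 = nx (F n) := fun n => rfl
  refine ⟨fun n => (F n).1.1, rfl, rfl, fun n => ?_, fun n => ?_⟩
  · show CAdj σ (F n).1.1 (F (n + 1)).1.1
    rw [hF]
    exact (F n).2
  · show (F (n + 1 + 1)).1.1 ≠ (F n).1.1
    rw [hF (n + 1), hF2]
    exact hnx1 (F n)

/-- A domain wall is part of a biinfinite non-backtracking one. -/
theorem exists_biinfinite {a b : V} (h : CAdj σ a b) : ∃ v : ℤ → V,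
    (∀ i, CAdj σ (v i) (v (i + 1))) ∧ ∀ i, v (i + 2) ≠ v i := by
  obtain ⟨c, hc1, hc2⟩ := exists_next h
  obtain ⟨f, hf0, hf1, hf2, hf3⟩ := exists_half h
  obtain ⟨g, hg0, hg1, hg2, hg3⟩ := exists_half hc2
  refine ⟨fun i => if 0 ≤ i then f i.toNat else g (-i).toNat, fun i => ?_, fun i => ?_⟩
  · simp only
    by_cases hi : 0 ≤ i
    · rw [if_pos hi, if_pos (by omega), show (i + 1).toNat = i.toNat + 1 by omega]
      exact hf2 _
    · rw [if_neg hi]
      by_cases hi' : 0 ≤ i + 1
      · rw [if_pos hi']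
        have : i = -1 := by omega
        subst this
        have h1 := (hg2 0).symm
        rw [hg0] at h1
        simpa [hf0] using h1
      · rw [if_neg hi', show (-i).toNat = (-(i + 1)).toNat + 1 by omega]
        exact (hg2 _).symm
  · simp only
    by_cases hi : 0 ≤ i
    · rw [if_pos hi, if_pos (by omega), show (i + 2).toNat = i.toNat + 2 by omega]
      exact hf3 _
    · rw [if_neg hi]
      by_cases hi' : 0 ≤ i + 2
      · rw [if_pos hi']
        have : i = -1 ∨ i = -2 := by omega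
        rcases this with rfl | rfl
        · simp only [Int.reduceNeg, Int.reduceAdd, Int.toNat_one, neg_neg, hf1]
          rw [hg1]
          exact hc1.symm
        · have h1 := hg3 0
          rw [hg0, zero_add] at h1
          simpa [hf0] using h1.symm
      · rw [if_neg hi', show (-i).toNat = (-(i + 2)).toNat + 2 by omega]
        exact (hg3 _).symm

/-- The walk along a path. -/
def seg (v : ℤ → V) (hv : ∀ i, latt.Adj (v i) (v (i + 1))) (i : ℤ) :
    (n : ℕ) → latt.Walk (v i) (v (i + n))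
  | 0 => (Walk.nil : latt.Walk (v i) (v i)).copy rfl (by simp)
  | n + 1 => ((seg v hv i n).concat (hv (i + n))).copy rfl (by push_cast; rw [add_assoc])

theorem darts_copy {x y x' y' : V} (p : latt.Walk x y) (hx : x = x') (hy : y = y') :
    (p.copy hx hy).darts = p.darts := by
  subst hx hy
  rfl

theorem seg_darts (v : ℤ → V) (hv : ∀ i, latt.Adj (v i) (v (i + 1))) (i : ℤ) (n : ℕ) :
    (seg v hv i n).darts = (List.range n).map fun k : ℕ => ⟨(v (i + k), v (i + k + 1)), hv _⟩ := by
  induction n with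
  | zero => simp [seg]
  | succ n ih =>
    rw [seg, darts_copy, Walk.darts_concat, ih, List.range_succ, List.map_append,
      List.concat_eq_append]
    rfl

theorem seg_crossed (v : ℤ → V) (hv : ∀ i, latt.Adj (v i) (v (i + 1))) (i : ℤ) (n : ℕ) :
    crossed (seg v hv i n) = (List.range n).map fun k : ℕ => de (v (i + k)) (v (i + k + 1)) := by
  unfold crossed
  rw [seg_darts, List.map_map]
  rfl

theorem seg_weight (t : latt.edgeSet → ℝ) (v : ℤ → V) (hv : ∀ i, latt.Adj (v i) (v (i + 1)))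
    (i : ℤ) (n : ℕ) : walkWeight t (seg v hv i n) =
      ∑ k ∈ Finset.Ico i (i + n), t ⟨s(v k, v (k + 1)), hv k⟩ := by
  have h1 : walkWeight t (seg v hv i n) =
      ∑ k ∈ Finset.range n, t ⟨s(v (i + k), v (i + k + 1)), hv (i + k)⟩ := by
    unfold walkWeight
    rw [seg_darts, List.map_map]
    rfl
  rw [h1]
  refine Finset.sum_bij (fun (k : ℕ) _ => i + (k : ℤ)) (fun k hk => ?_)
    (fun k _ l _ h => by omega) (fun j hj => ?_) (fun k _ => rfl)
  · rw [Finset.mem_range] at hk
    rw [Finset.mem_Ico]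
    omega
  · rw [Finset.mem_Ico] at hj
    refine ⟨(j - i).toNat, ?_, ?_⟩
    · rw [Finset.mem_range]; omega
    · omega

theorem seg_nodup {v : ℤ → V} (hv : ∀ i, latt.Adj (v i) (v (i + 1))) {i : ℤ} {n : ℕ}
    (h : ∀ k l : ℕ, k < l → l < n → s(v (i + k), v (i + k + 1)) ≠ s(v (i + l), v (i + l + 1))) :
    (crossed (seg v hv i n)).Nodup := by
  rw [seg_crossed]
  refine List.Nodup.map_on ?_ List.nodup_range
  intro k hk l hl he
  rw [List.mem_range] at hk hl
  have h1 := de_inj (hv (i + k)) (hv (i + l)) he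
  rcases lt_trichotomy k l with h2 | h2 | h2
  · exact absurd h1 (h k l h2 hl)
  · exact h2
  · exact absurd h1.symm (h l k h2 hk)

theorem seg_wall {v : ℤ → V} (hv : ∀ i, CAdj σ (v i) (v (i + 1))) (i : ℤ) (n : ℕ) :
    ∀ d ∈ (seg v (fun i => (hv i).1) i n).darts, Wall σ d.fst d.snd := by
  intro d hd
  rw [seg_darts] at hd
  obtain ⟨k, -, rfl⟩ := List.mem_map.1 hd
  exact (hv _).2

/-- Domain walls of ground states do not close up. -/
theorem wall_injective (hJ : ∀ e, 0 < J e) (hσ : IsGroundState J σ) {v : ℤ → V}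
    (hv : ∀ i, CAdj σ (v i) (v (i + 1))) (hv2 : ∀ i, v (i + 2) ≠ v i) :
    Function.Injective v := by
  have key : ∀ n : ℕ, ∀ i : ℤ, 0 < n → v i ≠ v (i + n) := by
    intro n
    induction n using Nat.strong_induction_on with
    | _ n ih =>
      intro i hn he
      -- all vertices of the segment are different
      have hne : ∀ k l : ℕ, k < l → l - k < n → v (i + k) ≠ v (i + l) := by
        intro k l hkl hln h
        refine ih (l - k) hln (i + k) (by omega) ?_
        rw [h]
        congr 1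
        omega
      have hnd : (crossed (seg v (fun i => (hv i).1) i n)).Nodup := by
        refine seg_nodup _ fun k l hkl hln h => ?_
        rw [Sym2.eq_iff] at h
        rcases h with ⟨h1, -⟩ | ⟨h1, h2⟩
        · exact hne k l hkl (by omega) h1
        · have e1 : i + (k : ℤ) + 1 = i + ((k + 1 : ℕ) : ℤ) := by push_cast; ring
          have e2 : i + (l : ℤ) + 1 = i + ((l + 1 : ℕ) : ℤ) := by push_cast; ring
          rcases Nat.lt_or_ge (k + 1) l with h3 | h3
          · rw [e1] at h2
            exact hne (k + 1) l h3 (by omega) h2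
          · have h4 : l = k + 1 := by omega
            subst h4
            refine hv2 (i + k) ?_
            rw [h1, e2]
            congr 1
            push_cast
            ring
      have hcl : v (i + n) = v i := he.symm
      have h1 := flip (fun e => (hJ e).le) hσ
        ((seg v (fun i => (hv i).1) i n).copy rfl hcl) Walk.nil
        (by unfold crossed; rw [darts_copy]; exact hnd)
        (by rw [darts_copy]; exact seg_wall hv i n)
      have h2 : walkWeight (dualEnv J) ((seg v (fun i => (hv i).1) i n).copy rfl hcl) =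
          walkWeight (dualEnv J) (seg v (fun i => (hv i).1) i n) := by
        generalize seg v (fun i => (hv i).1) i n = p at *
        generalize v (i + n) = y at *
        subst hcl
        rfl
      rw [h2, seg_weight] at h1
      have h3 : walkWeight (dualEnv J) (Walk.nil : latt.Walk (v i) (v i)) = 0 := rfl
      rw [h3] at h1
      have h4 : 0 < ∑ k ∈ Finset.Ico i (i + n),
          dualEnv J ⟨s(v k, v (k + 1)), (hv k).1⟩ :=
        Finset.sum_pos (fun k _ => hJ _) ⟨i, by rw [Finset.mem_Ico]; omega⟩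
      linarith
  intro i j hij
  rcases lt_trichotomy i j with h | h | h
  · exfalso
    refine key (j - i).toNat i (by omega) ?_
    rw [hij]
    congr 1
    omega
  · exact h
  · exfalso
    refine key (i - j).toNat j (by omega) ?_
    rw [← hij]
    congr 1
    omega

theorem walkWeight_nonneg {t : latt.edgeSet → ℝ} (ht : ∀ e, 0 ≤ t e) {x y : V}
    (p : latt.Walk x y) : 0 ≤ walkWeight t p := by
  unfold walkWeight
  refine List.sum_nonneg fun c hc => ?_
  obtain ⟨d, -, rfl⟩ := List.mem_map.1 hc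
  exact ht _

/-- Domain walls of ground states are bigeodesics of the dual environment. -/
theorem wall_bigeodesic (hJ : ∀ e, 0 < J e) (hσ : IsGroundState J σ) {v : ℤ → V}
    (hv : ∀ i, CAdj σ (v i) (v (i + 1))) (hv2 : ∀ i, v (i + 2) ≠ v i) :
    IsBigeodesic (dualEnv J) v := by
  have hinj := wall_injective hJ hσ hv hv2
  refine ⟨hinj, fun i => (hv i).1, fun i j hij => ?_⟩
  obtain ⟨n, rfl⟩ := Int.le.dest hij.le
  rw [← seg_weight (dualEnv J) v (fun i => (hv i).1) i n]
  have hnd : (crossed (seg v (fun i => (hv i).1) i n)).Nodup := by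
    refine seg_nodup _ fun k l hkl hln h => ?_
    rw [Sym2.eq_iff] at h
    rcases h with ⟨h1, -⟩ | ⟨h1, h2⟩
    · have := hinj h1; omega
    · have := hinj h1
      have := hinj h2
      omega
  have : Nonempty (latt.Walk (v i) (v (i + n))) := ⟨seg v (fun i => (hv i).1) i n⟩
  refine le_antisymm ?_ ?_
  · exact le_ciInf fun q => flip (fun e => (hJ e).le) hσ _ q hnd (seg_wall hv i n)
  · refine ciInf_le ⟨0, ?_⟩ (seg v (fun i => (hv i).1) i n)
    rintro _ ⟨q, rfl⟩
    exact walkWeight_nonneg (fun e => (hJ _).le) q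

/-- If there is no domain wall then the configuration is constant. -/
theorem const_of_no_wall (h : ∀ a b, ¬ CAdj σ a b) (x y : V) : σ x = σ y := by
  have h1 : ∀ a b : ℤ, σ (a, b) = σ (a, b + 1) := by
    intro a b
    by_contra hc
    exact h (a, b) (a - 1, b) ((cAdj_w (σ := σ) (a, b)).2 hc)
  have h2 : ∀ a b : ℤ, σ (a + 1, b) = σ (a, b) := by
    intro a b
    by_contra hc
    exact h (a, b) (a, b - 1) ((cAdj_s (σ := σ) (a, b)).2 hc)
  have h3 : ∀ a b : ℤ, σ (a, b) = σ (0, 0) := by
    intro a b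
    have h4 : ∀ a : ℤ, ∀ n : ℕ, σ (a, (n : ℤ)) = σ (a, 0) := by
      intro a n
      induction n with
      | zero => rfl
      | succ n ih => rw [← ih, h1 a n]; push_cast; rfl
    have h5 : ∀ a : ℤ, ∀ n : ℕ, σ (a, -(n : ℤ)) = σ (a, 0) := by
      intro a n
      induction n with
      | zero => simp
      | succ n ih =>
        rw [← ih, h1 a (-((n + 1 : ℕ) : ℤ))]
        congr 2
        push_cast
        ring
    have h6 : ∀ b : ℤ, ∀ n : ℕ, σ ((n : ℤ), b) = σ (0, b) := by
      intro b n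
      induction n with
      | zero => rfl
      | succ n ih => rw [← ih, ← h2 n b]; push_cast; rfl
    have h7 : ∀ b : ℤ, ∀ n : ℕ, σ (-(n : ℤ), b) = σ (0, b) := by
      intro b n
      induction n with
      | zero => simp
      | succ n ih =>
        rw [← ih, ← h2 (-((n + 1 : ℕ) : ℤ)) b]
        congr 2
        push_cast
        ring
    rcases Int.eq_nat_or_neg a with ⟨n, rfl | rfl⟩ <;>
    rcases Int.eq_nat_or_neg b with ⟨m, rfl | rfl⟩ <;>
    simp only [h4, h5, h6, h7]
  rw [show x = (x.1, x.2) from rfl, show y = (y.1, y.2) from rfl, h3, h3 y.1]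

/-- **Ground states are constant if the dual environment has no bigeodesic.** -/
theorem groundState_const (hJ : ∀ e, 0 < J e) (hno : ∀ v : ℤ → V, ¬ IsBigeodesic (dualEnv J) v)
    (hσ : IsGroundState J σ) (x y : V) : σ x = σ y := by
  refine const_of_no_wall (fun a b hab => ?_) x y
  obtain ⟨v, hv, hv2⟩ := exists_biinfinite hab
  exact hno v (wall_bigeodesic hJ hσ hv hv2)

end Vale.Agent.P158.H219
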