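import Vale.Agent.P158.Bdl.B1
import Vale.Agent.P158.H219.Ground
import Mathlib.Order.Filter.Ultrafilter.Basic

/-! Compactness: uniform versions of the absence of bigeodesics and of non-constant ground
states. -/

namespace Vale.Agent.P158.H219

open SimpleGraph Filter MeasureTheory

/-- `p` is a geodesic of the passage-time metric of the domain `S`: it stays in `S`, and no walk
in `S` with the same ends has smaller weight. -/
def IsGeodesicIn (t : latt.edgeSet → ℝ) (S : Set V) {x y : V} (p : latt.Walk x y) : Prop :=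
  (∀ z ∈ p.support, z ∈ S) ∧
    ∀ q : latt.Walk x y, (∀ z ∈ q.support, z ∈ S) → walkWeight t p ≤ walkWeight t q

theorem box_eq (N : ℕ) : box N = T1.bx 0 N := by
  ext z
  rw [T1.mem_bx]
  simp [box]

theorem exists_box (K : Finset V) : ∃ N : ℕ, ∀ z ∈ K, z ∈ box N := by
  induction K using Finset.induction_on with
  | empty => exact ⟨0, fun z hz => by simp at hz⟩
  | insert a K _ ih =>
    obtain ⟨N, hN⟩ := ih
    refine ⟨N + a.1.natAbs + a.2.natAbs, fun z hz => ?_⟩
    rw [Finset.mem_insert] at hz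
    rcases hz with rfl | hz
    · simp only [box, Set.mem_ofPred_eq, Int.abs_eq_natAbs]; omega
    · have := hN z hz
      simp only [box, Set.mem_ofPred_eq] at this ⊢
      omega

theorem adm_of_pos {t : latt.edgeSet → ℝ} (ht : ∀ e, 0 < t e) : Adm (wt t) := by
  refine ⟨fun x y => ?_, fun x y h => ?_⟩
  · unfold wt
    by_cases h : latt.Adj x y
    · rw [dif_pos h, dif_pos h.symm]
      congr 1
      exact Subtype.ext Sym2.eq_swap
    · rw [dif_neg h, dif_neg fun h' => h h'.symm]
  · unfold wt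
    rw [dif_pos h]
    exact ht _

theorem isBigeodesic_of_isBi {t : latt.edgeSet → ℝ} (ht : ∀ e, 0 < t e) {v : ℤ → V}
    (h : IsBi (wt t) v) : IsBigeodesic t v := by
  have hw := adm_of_pos ht
  have hadj := T1.isBi_adj h
  refine ⟨T1.isBi_inj hw h, hadj, fun i j hij => ?_⟩
  obtain ⟨n, rfl⟩ := Int.le.dest hij.le
  have h1 := (h i).2 n
  simp only [Nat.cast_zero, add_zero] at h1
  rw [← T_wt, ← h1]
  symm
  refine Finset.sum_bij (fun (k : ℕ) _ => i + (k : ℤ)) (fun k hk => ?_)
    (fun k _ l _ h => by omega) (fun j hj => ?_) (fun k _ => ?_)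
  · rw [Finset.mem_range] at hk
    rw [Finset.mem_Ico]
    omega
  · rw [Finset.mem_Ico] at hj
    refine ⟨(j - i).toNat, ?_, ?_⟩
    · rw [Finset.mem_range]; omega
    · omega
  · have e : i + ((k + 1 : ℕ) : ℤ) = i + (k : ℤ) + 1 := by push_cast; ring
    rw [e]
    unfold wt
    rw [dif_pos (hadj _)]

theorem geo_of_isGeodesicIn {t : latt.edgeSet → ℝ} (ht : ∀ e, 0 < t e) {S : Set V} {x y : V}
    {p : latt.Walk x y} (hp : IsGeodesicIn t S p) : CL.Geo (wt t) S p := by
  refine ⟨hp.1, le_antisymm ?_ (PT_le (adm_of_pos ht) p hp.1)⟩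
  refine le_PT ⟨p, hp.1⟩ fun q hq => ?_
  rw [ww_wt, ww_wt]
  exact hp.2 q hq

/-- Without bigeodesics, geodesics between distant points avoid every finite set, uniformly in
the domain. -/
theorem midpoint_uniform {t : latt.edgeSet → ℝ} (ht : ∀ e, 0 < t e)
    (hno : ∀ v : ℤ → V, ¬ IsBigeodesic t v) (K : Finset V) :
    ∃ N : ℕ, ∀ (S : Set V), box N ⊆ S → ∀ (x y : V), x ∉ box N → y ∉ box N →
      ∀ p : latt.Walk x y, IsGeodesicIn t S p → ∀ z ∈ p.support, z ∉ K := by
  by_contra hcon
  push Not at hcon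
  choose S hS x y hx hy p hp z hz hzK using hcon
  have hw := adm_of_pos ht
  have hidx : ∀ n, ∃ m, (p n).getVert m = z n ∧ m ≤ (p n).length := fun n =>
    Walk.mem_support_iff_exists_getVert.1 (hz n)
  choose m hm hml using hidx
  obtain ⟨r, hr⟩ := exists_box K
  have happ : CL.App (wt t) (hyperfilter ℕ) S (K : Set V) x y p m := by
    refine ⟨fun n => geo_of_isGeodesicIn ht (hp n), hml, fun n => ?_, fun N => ?_, fun u => ?_⟩
    · rw [hm]; exact hzK n
    · have h1 : ∀ᶠ n in (hyperfilter ℕ : Filter ℕ), N + r ≤ n :=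
        Nat.hyperfilter_le_atTop (eventually_ge_atTop _)
      filter_upwards [h1] with n hn
      have h2 := CL.length_ge (z := 0) (r := r) (N := n) (i := m n) (p n)
        (by rw [hm, ← box_eq]; exact hr _ (hzK n)) (hml n)
        (by rw [← box_eq]; exact hx n) (by rw [← box_eq]; exact hy n)
      have := hml n
      omega
    · obtain ⟨M, hM⟩ := exists_box {u}
      have h1 : ∀ᶠ n in (hyperfilter ℕ : Filter ℕ), M ≤ n :=
        Nat.hyperfilter_le_atTop (eventually_ge_atTop _)
      filter_upwards [h1] with n hn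
      refine hS n ?_
      have h2 := hM u (by simp)
      rw [box_eq] at h2 ⊢
      exact T1.bx_mono hn h2
  obtain ⟨g, hg, -⟩ := happ.exists_limit hw (Finset.finite_toSet K)
  exact hno g (isBigeodesic_of_isBi ht hg)

/-- Uniform version of the uniqueness of ground states. -/
theorem ground_uniform {J : latt.edgeSet → ℝ} (hJ : ∀ e, 0 < J e)
    (hno : ∀ v : ℤ → V, ¬ IsBigeodesic (dualEnv J) v) (K : Finset V) :
    ∃ N : ℕ, ∀ σ : V → ℤˣ, (∀ A : Finset V, (∀ z ∈ A, z ∈ box N) → 0 ≤ flipCost J σ A) →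
      ∀ x ∈ K, ∀ y ∈ K, σ x = σ y := by
  classical
  by_contra hcon
  push Not at hcon
  choose τ hτ x hx y hy hxy using hcon
  have hlim : ∀ u : V, ∃ s : ℤˣ, ∀ᶠ n in (hyperfilter ℕ : Filter ℕ), τ n u = s := by
    intro u
    obtain ⟨s, -, hs⟩ := CL.ultra_const (hyperfilter ℕ) (f := fun n => τ n u)
      (F := (Set.univ : Set ℤˣ)) Set.finite_univ (Eventually.of_forall fun _ => Set.mem_univ _)
    exact ⟨s, hs⟩
  choose σ hσ using hlim
  have hev : ∀ F : Finset V, ∀ᶠ n in (hyperfilter ℕ : Filter ℕ), ∀ u ∈ F, τ n u = σ u :=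
    fun F => (Finset.eventually_all F).2 fun u _ => hσ u
  have hgs : IsGroundState J σ := by
    intro A
    obtain ⟨M, hM⟩ := exists_box A
    have h1 : ∀ᶠ n in (hyperfilter ℕ : Filter ℕ), M ≤ n :=
      Nat.hyperfilter_le_atTop (eventually_ge_atTop _)
    obtain ⟨n, h2, h3, h4⟩ := (h1.and ((hev A).and (hev (A.biUnion nbr)))).exists
    have h5 := hτ n A fun z hz => by
      have := hM z hz
      rw [box_eq] at this ⊢
      exact T1.bx_mono h2 this
    have h6 : flipCost J (τ n) A = flipCost J σ A := by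
      unfold flipCost
      refine Finset.sum_congr rfl fun u hu => Finset.sum_congr rfl fun v hv => ?_
      rw [h3 u hu, h4 v (Finset.mem_biUnion.2 ⟨u, hu, (Finset.mem_sdiff.1 hv).1⟩)]
    rwa [h6] at h5
  obtain ⟨n, hn⟩ := (hev K).exists
  refine hxy n ?_
  rw [hn _ (hx n), hn _ (hy n)]
  exact groundState_const hJ hno hgs _ _

/-- Constant configurations are ground states. -/
theorem ground_of_const {J : latt.edgeSet → ℝ} (hJ : ∀ e, 0 < J e) {σ : V → ℤˣ}
    (h : ∀ x y, σ x = σ y) : IsGroundState J σ := by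
  intro A
  unfold flipCost
  refine Finset.sum_nonneg fun x _ => Finset.sum_nonneg fun y _ => ?_
  rw [coupling_eq, sign_eq, if_pos (h x y), mul_one]
  exact Jp_nonneg (fun e => (hJ e).le) _

theorem ground_iff {J : latt.edgeSet → ℝ} (hJ : ∀ e, 0 < J e)
    (hno : ∀ v : ℤ → V, ¬ IsBigeodesic (dualEnv J) v) (σ : V → ℤˣ) :
    IsGroundState J σ ↔ (∀ x, σ x = 1) ∨ (∀ x, σ x = -1) := by
  constructor
  · intro h
    have h1 := groundState_const hJ hno h
    rcases Int.units_eq_one_or (σ 0) with h2 | h2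
    · exact Or.inl fun x => (h1 x 0).trans h2
    · exact Or.inr fun x => (h1 x 0).trans h2
  · rintro (h | h)
    · exact ground_of_const hJ fun x y => by rw [h, h]
    · exact ground_of_const hJ fun x y => by rw [h, h]

variable {G : Measure ℝ} {Ω : Type*} [MeasurableSpace Ω]
  {P : Measure Ω} {t : latt.edgeSet → Ω → ℝ}

theorem ae_pos_of_law (hG : G (Set.Iio 0) = 0) (hatom : ∀ x, G {x} = 0)
    (ht : ∀ e, Measurable (t e)) (hlaw : ∀ e, P.map (t e) = G) :
    ∀ᵐ ω ∂P, ∀ e, 0 < t e ω := by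
  rw [ae_all_iff]
  intro e
  have h1 : G (Set.Iic 0) = 0 := by
    have : Set.Iic (0 : ℝ) = Set.Iio 0 ∪ {0} := by
      ext x; simp [le_iff_lt_or_eq]
    rw [this]
    exact measure_union_null hG (hatom 0)
  have h2 : P ((t e) ⁻¹' Set.Iic 0) = 0 := by
    rw [← Measure.map_apply (ht e) measurableSet_Iic, hlaw, h1]
  refine measure_mono_null (fun ω hω => ?_) h2
  have hω' : ¬ 0 < t e ω := hω
  exact not_lt.1 hω'

variable [IsProbabilityMeasure G] [IsProbabilityMeasure P]

theorem ae_dual (hG : G (Set.Iio 0) = 0) (hatom : ∀ x, G {x} = 0)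
    (ht : ∀ e, Measurable (t e)) (hlaw : ∀ e, P.map (t e) = G)
    (hind : ProbabilityTheory.iIndepFun t P) :
    ∀ᵐ ω ∂P, ∀ v : ℤ → V, ¬ IsBigeodesic (dualEnv fun e => t e ω) v :=
  C.Fin.no_bigeodesics_all G hG hatom Ω P (fun e => t (D e)) (fun _ => ht _)
    (fun _ => hlaw _) (hind.precomp D_injective)

theorem measurable_walkWeight (ht : ∀ e, Measurable (t e)) {x y : V} (p : latt.Walk x y) :
    Measurable fun ω => walkWeight (fun e => t e ω) p := by
  have h1 : Measurable fun ω => (fun e => t e ω : Env) := measurable_pi_lambda _ ht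
  have h2 := (measurable_ww p).comp h1
  have h3 : (fun ω => walkWeight (fun e => t e ω) p) =
      (fun τ : Env => ww (wt τ) p) ∘ fun ω => (fun e => t e ω : Env) := by
    funext ω
    exact (ww_wt _ p).symm
  rw [h3]
  exact h2

/-- The event that some geodesic between two points outside the box meets `K`. -/
def midEvent (t : latt.edgeSet → Ω → ℝ) (K : Finset V) (N : ℕ) : Set Ω :=
  {ω | ∃ x y : V, x ∉ box N ∧ y ∉ box N ∧ ∃ p : latt.Walk x y,
    IsGeodesicIn (fun e => t e ω) Set.univ p ∧ ∃ z ∈ p.support, z ∈ K}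

theorem measurableSet_midEvent (ht : ∀ e, Measurable (t e)) (K : Finset V) (N : ℕ) :
    MeasurableSet (midEvent t K N) := by
  have h : midEvent t K N = ⋃ (x : V), ⋃ (y : V), ⋃ (p : latt.Walk x y),
      ⋃ (_ : x ∉ box N ∧ y ∉ box N ∧ ∃ z ∈ p.support, z ∈ K), ⋂ (q : latt.Walk x y),
      {ω | walkWeight (fun e => t e ω) p ≤ walkWeight (fun e => t e ω) q} := by
    ext ω
    simp only [midEvent, IsGeodesicIn, Set.mem_ofPred_eq, Set.mem_iUnion, Set.mem_iInter,
      Set.mem_univ, implies_true, true_and, forall_const, exists_prop]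
    constructor
    · rintro ⟨x, y, h1, h2, p, h3, h4⟩
      exact ⟨x, y, p, ⟨h1, h2, h4⟩, h3⟩
    · rintro ⟨x, y, p, ⟨h1, h2, h4⟩, h3⟩
      exact ⟨x, y, h1, h2, p, h3, h4⟩
  rw [h]
  exact MeasurableSet.iUnion fun x => MeasurableSet.iUnion fun y => MeasurableSet.iUnion fun p =>
    MeasurableSet.iUnion fun _ => MeasurableSet.iInter fun q =>
      measurableSet_le (measurable_walkWeight ht p) (measurable_walkWeight ht q)

theorem midEvent_tendsto (ht : ∀ e, Measurable (t e)) (K : Finset V)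
    (h : ∀ᵐ ω ∂P, ∃ N, ω ∉ midEvent t K N) :
    Tendsto (fun N : ℕ => P (midEvent t K N)) atTop (nhds 0) := by
  have hanti : Antitone fun N : ℕ => midEvent t K N := by
    intro N M hNM ω hω
    obtain ⟨x, y, h1, h2, h3⟩ := hω
    have hsub : box N ⊆ box M := by
      rw [box_eq, box_eq]; exact T1.bx_mono hNM
    exact ⟨x, y, fun hc => h1 (hsub hc), fun hc => h2 (hsub hc), h3⟩
  have h1 := tendsto_measure_iInter_atTop (μ := P) (s := fun N : ℕ => midEvent t K N)
    (fun N => (measurableSet_midEvent ht K N).nullMeasurableSet) hanti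
    ⟨0, measure_ne_top _ _⟩
  have h2 : P (⋂ N, midEvent t K N) = 0 := by
    refine measure_mono_null (fun ω hω => ?_) h
    simp only [Set.mem_iInter] at hω
    show ¬ ∃ N, ω ∉ midEvent t K N
    push Not
    exact hω
  rwa [h2] at h1

end Vale.Agent.P158.H219
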