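import Vale.Agent.P158.H219.Excess
import Mathlib.Topology.Algebra.InfiniteSum.Order

/-! Consequences of the divergence of the excess: summable perturbations, ground states,
probabilities. -/

namespace Vale.Agent.P158.H219

open SimpleGraph Filter MeasureTheory T1

/-- Divergence of the excess of walks through a finite set, uniformly in the domain. -/
def ExcessDiverges (t : latt.edgeSet → ℝ) : Prop :=
  ∀ (K : Finset V) (C : ℝ), ∃ N : ℕ, ∀ S : Set V, box N ⊆ S → ∀ x y : V,
    x ∉ box N → y ∉ box N → ∀ p : latt.Walk x y, (∀ z ∈ p.support, z ∈ S) →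
    (∃ z ∈ p.support, z ∈ K) →
      ∃ q : latt.Walk x y, (∀ z ∈ q.support, z ∈ S) ∧ walkWeight t q + C ≤ walkWeight t p

theorem walkWeight_path {t : latt.edgeSet → ℝ} {x y : V} {p : latt.Walk x y} (hp : p.IsPath) :
    walkWeight t p = ∑ e ∈ pe p, t e := by
  rw [← ww_wt, Pe.ww_eq_sum hp]

theorem not_isBigeodesic {t s : latt.edgeSet → ℝ} (ht : ∀ e, 0 < t e) (hex : ExcessDiverges t)
    (hs : ∀ e, 0 ≤ s e) (hsum : Summable fun e => |s e - t e|) (v : ℤ → V) :
    ¬ IsBigeodesic s v := by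
  classical
  intro hv
  have hinj := hv.injective
  have hadj := hv.adj
  set L : ℝ := ∑' e, |s e - t e| with hL
  have hLF : ∀ F : Finset latt.edgeSet, ∑ e ∈ F, |s e - t e| ≤ L := fun F =>
    hsum.sum_le_tsum F fun e _ => abs_nonneg _
  obtain ⟨N, hN⟩ := hex {v 0} (2 * L + 1)
  have hfin : {i : ℤ | v i ∈ box N}.Finite := by
    have h1 : (box N).Finite := by rw [box_eq]; exact bx_finite 0 N
    exact h1.preimage hinj.injOn
  obtain ⟨i, hi0, hi⟩ := (Set.Iio_infinite (0 : ℤ)).exists_notMem_finite hfin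
  obtain ⟨j, hj0, hj⟩ := (Set.Ioi_infinite (0 : ℤ)).exists_notMem_finite hfin
  have hi0' : i < 0 := hi0
  have hj0' : 0 < j := hj0
  obtain ⟨n, rfl⟩ := Int.le.dest (show i ≤ j by omega)
  have hmem : v 0 ∈ (seg v hadj i n).support := by
    have h1 : (⟨(v (i + ((-i).toNat : ℤ)), v (i + ((-i).toNat : ℤ) + 1)), hadj _⟩ : latt.Dart) ∈
        (seg v hadj i n).darts := by
      rw [seg_darts]
      exact List.mem_map.2 ⟨(-i).toNat, List.mem_range.2 (by omega), rfl⟩
    have h2 := Walk.dart_fst_mem_support_of_mem_darts _ h1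
    have h3 : v (i + ((-i).toNat : ℤ)) = v 0 := by congr 1; omega
    simp only [h3] at h2
    exact h2
  obtain ⟨q, -, hq⟩ := hN Set.univ (Set.subset_univ _) (v i) (v (i + n)) hi hj
    (seg v hadj i n) (fun _ _ => Set.mem_univ _) ⟨v 0, hmem, by simp⟩
  -- the weight of the segment
  have h1 : walkWeight t (seg v hadj i n) ≤ walkWeight s (seg v hadj i n) + L := by
    rw [seg_weight, seg_weight]
    have h2 : ∑ k ∈ Finset.Ico i (i + n), t ⟨s(v k, v (k + 1)), hadj k⟩ ≤
        ∑ k ∈ Finset.Ico i (i + n), (s ⟨s(v k, v (k + 1)), hadj k⟩ +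
          |s ⟨s(v k, v (k + 1)), hadj k⟩ - t ⟨s(v k, v (k + 1)), hadj k⟩|) := by
      refine Finset.sum_le_sum fun k _ => ?_
      have := neg_abs_le (s ⟨s(v k, v (k + 1)), hadj k⟩ - t ⟨s(v k, v (k + 1)), hadj k⟩)
      linarith
    rw [Finset.sum_add_distrib] at h2
    have h3 : ∑ k ∈ Finset.Ico i (i + n),
        |s ⟨s(v k, v (k + 1)), hadj k⟩ - t ⟨s(v k, v (k + 1)), hadj k⟩| ≤ L := by
      have hinj' : Set.InjOn (fun k : ℤ => (⟨s(v k, v (k + 1)), hadj k⟩ : latt.edgeSet))
          (Finset.Ico i (i + n) : Set ℤ) := by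
        intro a _ b _ hab
        have h4 : s(v a, v (a + 1)) = s(v b, v (b + 1)) := congrArg Subtype.val hab
        rw [Sym2.eq_iff] at h4
        rcases h4 with ⟨h5, -⟩ | ⟨h5, h6⟩
        · exact hinj h5
        · have := hinj h5
          have := hinj h6
          omega
      have h4 := hLF ((Finset.Ico i (i + n)).image
        fun k : ℤ => (⟨s(v k, v (k + 1)), hadj k⟩ : latt.edgeSet))
      rwa [Finset.sum_image hinj'] at h4
    linarith
  -- the weight of the competitor
  have h2 : walkWeight s q.bypass ≤ walkWeight t q.bypass + L := by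
    rw [walkWeight_path q.bypass_isPath, walkWeight_path q.bypass_isPath]
    have h3 : ∑ e ∈ pe q.bypass, s e ≤ ∑ e ∈ pe q.bypass, (t e + |s e - t e|) := by
      refine Finset.sum_le_sum fun e _ => ?_
      have := le_abs_self (s e - t e)
      linarith
    rw [Finset.sum_add_distrib] at h3
    have := hLF (pe q.bypass)
    linarith
  have h3 : walkWeight t q.bypass ≤ walkWeight t q := by
    rw [← ww_wt, ← ww_wt]
    exact ww_bypass_le (adm_of_pos ht) q
  have h4 : walkWeight s (seg v hadj i n) ≤ walkWeight s q.bypass := by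
    rw [seg_weight, hv.geodesic i (i + n) (by omega)]
    refine ciInf_le ⟨0, ?_⟩ q.bypass
    rintro _ ⟨q, rfl⟩
    exact walkWeight_nonneg hs q
  linarith

theorem passageTime_excess {t : latt.edgeSet → ℝ} (ht : ∀ e, 0 < t e) (hex : ExcessDiverges t)
    (z : V) (C : ℝ) : ∃ N : ℕ, ∀ x y : V, x ∉ box N → y ∉ box N →
      passageTime t x y + C ≤ passageTime t x z + passageTime t z y := by
  obtain ⟨N, hN⟩ := hex {z} C
  refine ⟨N, fun x y hx hy => ?_⟩
  have hne : ∀ a b : V, Nonempty (latt.Walk a b) := fun a b =>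
    let ⟨p, _⟩ := conn_univ a b
    ⟨p⟩
  have := hne x z
  have := hne z y
  have key : ∀ (p : latt.Walk x z) (q : latt.Walk z y),
      passageTime t x y + C ≤ walkWeight t p + walkWeight t q := by
    intro p q
    obtain ⟨r, -, hr⟩ := hN Set.univ (Set.subset_univ _) x y hx hy (p.append q)
      (fun _ _ => Set.mem_univ _) ⟨z, by rw [Walk.mem_support_append_iff]; simp, by simp⟩
    have h1 : passageTime t x y ≤ walkWeight t r := by
      refine ciInf_le ⟨0, ?_⟩ r
      rintro _ ⟨q, rfl⟩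
      exact walkWeight_nonneg (fun e => (ht e).le) q
    rw [← ww_wt t (p.append q), ww_append, ww_wt, ww_wt] at hr
    linarith
  have h1 : ∀ q : latt.Walk z y, passageTime t x y + C - walkWeight t q ≤ passageTime t x z :=
    fun q => le_ciInf fun p => by linarith [key p q]
  have h2 : passageTime t x y + C - passageTime t x z ≤ passageTime t z y :=
    le_ciInf fun q => by linarith [h1 q]
  linarith

theorem summable_dual {s t : latt.edgeSet → ℝ} (h : Summable fun e => |s e - t e|) :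
    Summable fun e => |dualEnv s e - dualEnv t e| :=
  h.comp_injective D_injective

variable {G : Measure ℝ} [IsProbabilityMeasure G] {Ω : Type*} [MeasurableSpace Ω]
  {P : Measure Ω} {t : latt.edgeSet → Ω → ℝ}

/-- Transfer to independent edge weights on a probability space. -/
theorem ae_excess_transfer (hG : G (Set.Iio 0) = 0) (hatom : ∀ x, G {x} = 0)
    (ht : ∀ e, Measurable (t e)) (hlaw : ∀ e, P.map (t e) = G)
    (hind : ProbabilityTheory.iIndepFun t P) :
    ∀ᵐ ω ∂P, (∀ e, 0 < t e ω) ∧ ExcessDiverges fun e => t e ω := by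
  have := hind.isProbabilityMeasure
  have : NullSingletonClass G := ⟨hatom⟩
  have hmap : P.map (fun ω e => t e ω) = PG G := by
    have h1 := hind.map_fun_eq_infinitePi_map ht
    rw [h1]
    unfold PG
    simp only [hlaw]
  have h2 : ∀ᵐ τ ∂(P.map (fun ω e => t e ω)), (∀ e, 0 < τ e) ∧ ExcessDiverges τ := by
    rw [hmap]
    exact ae_excess hG
  exact ae_of_ae_map (measurable_pi_lambda _ ht).aemeasurable h2

theorem measurable_passageTime (ht : ∀ e, Measurable (t e)) (x y : V) :
    Measurable fun ω => passageTime (fun e => t e ω) x y :=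
  Measurable.iInf fun p => measurable_walkWeight ht p

/-- The event that the excess at `z` is less than `C` for some pair outside the box. -/
def exEvent (t : latt.edgeSet → Ω → ℝ) (z : V) (C : ℝ) (N : ℕ) : Set Ω :=
  {ω | ∃ x y : V, x ∉ box N ∧ y ∉ box N ∧
    passageTime (fun e => t e ω) x z + passageTime (fun e => t e ω) z y <
      passageTime (fun e => t e ω) x y + C}

theorem measurableSet_exEvent (ht : ∀ e, Measurable (t e)) (z : V) (C : ℝ) (N : ℕ) :
    MeasurableSet (exEvent t z C N) := by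
  have h : exEvent t z C N = ⋃ (x : V), ⋃ (y : V), ⋃ (_ : x ∉ box N ∧ y ∉ box N),
      {ω | passageTime (fun e => t e ω) x z + passageTime (fun e => t e ω) z y <
      passageTime (fun e => t e ω) x y + C} := by
    ext ω
    simp only [exEvent, Set.mem_ofPred_eq, Set.mem_iUnion, exists_prop]
    constructor
    · rintro ⟨x, y, h1, h2, h3⟩
      exact ⟨x, y, ⟨h1, h2⟩, h3⟩
    · rintro ⟨x, y, ⟨h1, h2⟩, h3⟩
      exact ⟨x, y, h1, h2, h3⟩
  rw [h]
  exact MeasurableSet.iUnion fun x => MeasurableSet.iUnion fun y =>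
    MeasurableSet.iUnion fun _ =>
      measurableSet_lt ((measurable_passageTime ht x z).add (measurable_passageTime ht z y))
        ((measurable_passageTime ht x y).add_const C)

variable [IsProbabilityMeasure P]

theorem exEvent_tendsto (ht : ∀ e, Measurable (t e)) (z : V) (C : ℝ)
    (h : ∀ᵐ ω ∂P, ∃ N, ω ∉ exEvent t z C N) :
    Tendsto (fun N : ℕ => P (exEvent t z C N)) atTop (nhds 0) := by
  have hanti : Antitone fun N : ℕ => exEvent t z C N := by
    intro N M hNM ω hω
    obtain ⟨x, y, h1, h2, h3⟩ := hω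
    have hsub : box N ⊆ box M := by
      rw [box_eq, box_eq]; exact T1.bx_mono hNM
    exact ⟨x, y, fun hc => h1 (hsub hc), fun hc => h2 (hsub hc), h3⟩
  have h1 := tendsto_measure_iInter_atTop (μ := P) (s := fun N : ℕ => exEvent t z C N)
    (fun N => (measurableSet_exEvent ht z C N).nullMeasurableSet) hanti
    ⟨0, measure_ne_top _ _⟩
  have h2 : P (⋂ N, exEvent t z C N) = 0 := by
    refine measure_mono_null (fun ω hω => ?_) h
    simp only [Set.mem_iInter] at hω
    show ¬ ∃ N, ω ∉ exEvent t z C N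
    push Not
    exact hω
  rwa [h2] at h1

/-- The main theorem. -/
theorem main (hG : G (Set.Iio 0) = 0) (hatom : ∀ x, G {x} = 0)
    (ht : ∀ e, Measurable (t e)) (hlaw : ∀ e, P.map (t e) = G)
    (hind : ProbabilityTheory.iIndepFun t P) :
    (∀ᵐ ω ∂P, ∀ v : ℤ → V, ¬ IsBigeodesic (fun e => t e ω) v) ∧
    (∀ᵐ ω ∂P, ∀ (K : Finset V) (C : ℝ), ∃ N : ℕ, ∀ S : Set V, box N ⊆ S → ∀ x y : V,
      x ∉ box N → y ∉ box N → ∀ p : latt.Walk x y, (∀ z ∈ p.support, z ∈ S) →
      (∃ z ∈ p.support, z ∈ K) → ∃ q : latt.Walk x y, (∀ z ∈ q.support, z ∈ S) ∧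
        walkWeight (fun e => t e ω) q + C ≤ walkWeight (fun e => t e ω) p) ∧
    (∀ (z : V) (C : ℝ), Tendsto (fun N : ℕ => P {ω | ∃ x y : V, x ∉ box N ∧ y ∉ box N ∧
      passageTime (fun e => t e ω) x z + passageTime (fun e => t e ω) z y <
        passageTime (fun e => t e ω) x y + C}) atTop (nhds 0)) ∧
    (∀ᵐ ω ∂P, ∀ s : latt.edgeSet → ℝ, (∀ e, 0 ≤ s e) → (Summable fun e => |s e - t e ω|) →
      ∀ v : ℤ → V, ¬ IsBigeodesic s v) ∧
    (∀ᵐ ω ∂P, ∀ J : latt.edgeSet → ℝ, (∀ e, 0 < J e) → (Summable fun e => |J e - t e ω|) →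
      (∀ σ : V → ℤˣ, IsGroundState J σ ↔ (∀ x, σ x = 1) ∨ (∀ x, σ x = -1)) ∧
      ∀ K : Finset V, ∃ N : ℕ, ∀ σ : V → ℤˣ,
        (∀ A : Finset V, (∀ z ∈ A, z ∈ box N) → 0 ≤ flipCost J σ A) →
        ∀ x ∈ K, ∀ y ∈ K, σ x = σ y) := by
  have h1 := ae_excess_transfer hG hatom ht hlaw hind
  have h2 : ∀ᵐ ω ∂P, (∀ e, 0 < t (D e) ω) ∧ ExcessDiverges fun e => t (D e) ω :=
    ae_excess_transfer (t := fun e => t (D e)) hG hatom (fun _ => ht _) (fun _ => hlaw _)
      (hind.precomp D_injective)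
  refine ⟨C.Fin.no_bigeodesics_all G hG hatom Ω P t ht hlaw hind, ?_, fun z C => ?_, ?_, ?_⟩
  · filter_upwards [h1] with ω hω
    exact hω.2
  · refine exEvent_tendsto ht z C ?_
    filter_upwards [h1] with ω hω
    obtain ⟨N, hN⟩ := passageTime_excess hω.1 hω.2 z C
    refine ⟨N, fun hcon => ?_⟩
    obtain ⟨x, y, hx, hy, hxy⟩ := hcon
    exact absurd (hN x y hx hy) (not_le.2 hxy)
  · filter_upwards [h1] with ω hω s hs hsum v
    exact not_isBigeodesic hω.1 hω.2 hs hsum v
  · filter_upwards [h2] with ω hω J hJ hsum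
    have hsum' : Summable fun e => |dualEnv J e - t (D e) ω| :=
      summable_dual (s := J) (t := fun e => t e ω) hsum
    have hJ' : ∀ e, 0 ≤ dualEnv J e := fun e => (hJ (D e)).le
    have hno : ∀ v : ℤ → V, ¬ IsBigeodesic (dualEnv J) v := fun v =>
      not_isBigeodesic (t := fun e => t (D e) ω) (s := dualEnv J) hω.1 hω.2 hJ' hsum' v
    exact ⟨ground_iff hJ hno, ground_uniform hJ hno⟩

end Vale.Agent.P158.H219
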